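import Crest.Agent.N250.Nq.Alg
import Crest.Agent.N250.Gc.Gr
import Crest.Agent.N250.Wt.AA3

/-!
# Row 250 (helper71): the core nonlinearity `NL` on the algebra `σ.AA`, definitions
-/

set_option autoImplicit false
open Filter Topology
open scoped NNReal

noncomputable section

namespace Crest.Agent.N250.Nq

open Gc WS

variable {X : Type} [TopologicalSpace X] [MeasurableSpace X]

/-- transversal field, rotation cut-offs, multiplier functions, outer cut-off -/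
structure Dt (G : Geo X) (J κ : Type) where
  Z : Fin 3 → G.R
  χ : J → G.R
  φ : κ → G.R
  cut : G.R

/-- matrices -/
abbrev Mt (J : Type) : Type := J → Fin 3 → Fin 3 → ℂ

namespace Dt

variable {G : Geo X} {J κ : Type} (D : Dt G J κ)

/-- hypotheses on the data -/
structure Good : Prop where
  nZ : ∑ c, G.n c * D.Z c = 1
  symZ : ∀ c, G.Sy 0 (D.Z c)
  symZd : ∀ c, G.Sy (-2) (G.ζ * G.S.dr (D.Z c))
  cχ : ∀ j, HasCompactSupport (G.ζ * D.χ j).1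
  cφ : ∀ i, HasCompactSupport (D.φ i).1
  symcut : G.Sy 0 D.cut
  cut : ∀ p, D.cut.1 p ≠ 0 → G.ζ.1 p = 1

variable [Fintype J] [Fintype κ]

/-- `(∑ χ_j T_j) w` -/
def mv (T : Mt J) (w : Fin 3 → G.R) (c : Fin 3) : G.SmC :=
  ∑ j, ∑ d, T j c d • G.oR (D.χ j * w d)

/-- `V = M Z`, `M = 1 + ∑ χ_j T_j` -/
def VV (T : Mt J) (c : Fin 3) : G.SmC := G.oR (D.Z c) + D.mv T D.Z c

/-- `y = (M - 1) x` -/
def yy (T : Mt J) : Fin 3 → G.SmC := D.mv T G.S.x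

/-- the map `M (x + u Z)` -/
def Xh (u : G.SmC) (T : Mt J) : Fin 3 → G.SmC := G.SC.x + (D.yy T + fun c => u * D.VV T c)

/-- the multiplier function -/
def ph (c : κ → ℂ) : G.SmC := ∑ i, c i • G.oR (D.φ i)

/-- `⟨N, M Z⟩` -/
def NZ (u : G.SmC) (T : Mt J) : G.SmC := dot (G.SC.NX (D.Xh u T)) (D.VV T)

/-- numerator of the multiplier term -/
def Mu (u : G.SmC) (T : Mt J) (c : κ → ℂ) : G.SmC := G.SC.GX (D.Xh u T) * D.ph c -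
  ∑ a, dot (G.SC.WX (D.Xh u T) a) (D.VV T) * G.SC.D a (u * D.ph c)

/-- the normalised Euler-Lagrange expression -/
def EQ (u : G.SmC) (T : Mt J) (c : κ → ℂ) (p : X) : ℂ :=
  (G.SC.ELX (D.Xh u T)).1 p / (2 * (G.SC.GX (D.Xh u T)).1 p * (D.NZ u T).1 p) -
    (D.Mu u T c).1 p / ((D.NZ u T).1 p ^ 2 * (1 - u.1 p * (D.ph c).1 p))

/-- the denominators do not vanish at `p` -/
structure Nd (u : G.SmC) (T : Mt J) (c : κ → ℂ) (p : X) : Prop where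
  GX : (G.SC.GX (D.Xh u T)).1 p ≠ 0
  NZ : (D.NZ u T).1 p ≠ 0
  d3 : 1 - u.1 p * (D.ph c).1 p ≠ 0

end Dt

variable {G : Geo X}

/-- `ζ ρ^k D^l g` -/
def ow (G : Geo X) (k : ℕ) (l : List (Fin 3)) (g : G.R) : G.R := G.ζ * (G.ρ ^ k * G.S.Dw l g)

/-- `ζ ρ^k dr g` -/
def od (G : Geo X) (k : ℕ) (g : G.R) : G.R := G.ζ * (G.ρ ^ k * G.S.dr g)

/-- finite norm -/
def Fi (G : Geo X) (ε : ℕ → ℝ≥0) (f : G.R) : Prop := G.NN ε (G.oR f) ≠ ⊤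

/-- a real function as an element of the algebra (`0` if it is not in the algebra) -/
def tr [BorelSpace X] (σ : Scale G) (f : G.R) : σ.AA := by
  classical exact if h : Fi G σ.ε f then σ.el (G.oR f) h else 0

/-- the variables `(j0, j1, j2, T, c)` -/
abbrev Vr [BorelSpace X] (σ : Scale G) (J κ : Type) : Type :=
  σ.AA × (Fin 3 → σ.AA) × (Fin 3 → Fin 3 → σ.AA) × Mt J × (κ → ℂ)

namespace Dt

variable {J κ : Type} (D : Dt G J κ)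

/-- all coefficients are in the algebra -/
structure Ok (ε : ℕ → ℝ≥0) : Prop where
  n : ∀ a, Fi G ε (G.n a)
  B : ∀ a b, Fi G ε (G.ρ * G.S.B a b)
  Z : ∀ c, Fi G ε (D.Z c)
  Z1 : ∀ a c, Fi G ε (ow G 1 [a] (D.Z c))
  Z2 : ∀ a b c, Fi G ε (ow G 2 [a, b] (D.Z c))
  Zd : ∀ c, Fi G ε (od G 2 (D.Z c))
  V : ∀ j d, Fi G ε (ow G 0 [] (D.χ j * D.Z d))
  V1 : ∀ a j d, Fi G ε (ow G 1 [a] (D.χ j * D.Z d))
  V2 : ∀ a b j d, Fi G ε (ow G 2 [a, b] (D.χ j * D.Z d))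
  Vd : ∀ j d, Fi G ε (od G 2 (D.χ j * D.Z d))
  y1 : ∀ a j d, Fi G ε (ow G 0 [a] (D.χ j * G.S.x d))
  y2 : ∀ a b j d, Fi G ε (ow G 1 [a, b] (D.χ j * G.S.x d))
  yd : ∀ j d, Fi G ε (od G 1 (D.χ j * G.S.x d) - ow G 1 [] (D.χ j * G.S.x d))
  f0 : ∀ i, Fi G ε (G.ρ * D.φ i)
  f1 : ∀ a i, Fi G ε (G.ρ ^ 2 * G.S.D a (D.φ i))
  cut : Fi G ε D.cut
  rot : ∀ j c d, Fi G ε (D.cut * (G.ρ * G.S.LL (D.χ j * G.S.x d * G.n c)))

variable [Fintype J] [Fintype κ] [BorelSpace X] (σ : Scale G)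

/-- `∑ T j c d • O (χ_j w_d)` -/
def rt (O : G.R → G.R) (w : Fin 3 → G.R) (T : Mt J) (c : Fin 3) : σ.AA :=
  ∑ j, ∑ d, T j c d • tr σ (O (D.χ j * w d))

/-- the jets in the algebra -/
def fl (v : Vr σ J κ) : Fl σ.AA where
  n a := tr σ (G.n a)
  B a b := tr σ (G.ρ * G.S.B a b)
  j0 := v.1
  j1 := v.2.1
  j2 := v.2.2.1
  V c := tr σ (D.Z c) + D.rt σ (ow G 0 []) D.Z v.2.2.2.1 c
  V1 a c := tr σ (ow G 1 [a] (D.Z c)) + D.rt σ (ow G 1 [a]) D.Z v.2.2.2.1 c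
  V2 a b c := tr σ (ow G 2 [a, b] (D.Z c)) + D.rt σ (ow G 2 [a, b]) D.Z v.2.2.2.1 c
  Vd c := tr σ (od G 2 (D.Z c)) + D.rt σ (od G 2) D.Z v.2.2.2.1 c
  y1 a c := D.rt σ (ow G 0 [a]) G.S.x v.2.2.2.1 c
  y2 a b c := D.rt σ (ow G 1 [a, b]) G.S.x v.2.2.2.1 c
  yd c := D.rt σ (fun g => od G 1 g - ow G 1 [] g) G.S.x v.2.2.2.1 c
  f0 := ∑ i, v.2.2.2.2 i • tr σ (G.ρ * D.φ i)
  f1 a := ∑ i, v.2.2.2.2 i • tr σ (G.ρ ^ 2 * G.S.D a (D.φ i))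

/-- `cut ρ (EQ - (dr u - u) / 2)` -/
def FF (v : Vr σ J κ) : σ.AA := (1 / 2 : ℂ) • (tr σ D.cut * (D.fl σ v).E)

/-- `cut ρ (EQ + LL u + LL ⟨y, n⟩ + φ)`: the quadratic part -/
def NL (v : Vr σ J κ) : σ.AA := D.FF σ v - fderiv ℂ (D.FF σ) 0 v

/-- `cut ρ LL ⟨y, n⟩`, linear in `T` -/
def rot : Mt J →L[ℂ] σ.AA :=
  ∑ j, ∑ c, ∑ d, ((ContinuousLinearMap.proj d).comp ((ContinuousLinearMap.proj c).comp
    (ContinuousLinearMap.proj j : Mt J →L[ℂ] Fin 3 → Fin 3 → ℂ))).smulRight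
      (tr σ (D.cut * (G.ρ * G.S.LL (D.χ j * G.S.x d * G.n c))))

/-- `cut ρ (EQ + LL u + φ)` -/
def NQ (v : Vr σ J κ) : σ.AA := D.NL σ v - D.rot σ v.2.2.2.1

end Dt

variable [BorelSpace X] {σ : Scale G} {J κ : Type}

/-- conjugation of the variables -/
def cjV (v : Vr σ J κ) : Vr σ J κ :=
  (σ.cj v.1, fun a => σ.cj (v.2.1 a), fun a b => σ.cj (v.2.2.1 a b), star v.2.2.2.1, star v.2.2.2.2)

/-- at `p` the variables are the weighted jets of `u` -/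
structure At (v : Vr σ J κ) (u : G.SmC) (p : X) : Prop where
  ζ : G.ζ.1 p = 1
  j0 : (σ.val v.1).1 p = (G.oR G.ι * u).1 p
  j1 : ∀ a, (σ.val (v.2.1 a)).1 p = (G.SC.D a u).1 p
  j2 : ∀ a b, (σ.val (v.2.2.1 a b)).1 p = (G.oR G.ρ * G.SC.D a (G.SC.D b u)).1 p

end Crest.Agent.N250.Nq

end
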