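import Crest.Agent.N250.Gc.Lin

/-!
# Row 250 (helper71): the core nonlinearity as a rational function of weighted jets
-/

set_option autoImplicit false
open Filter Topology

noncomputable section

namespace Crest.Agent.N250.Nq

open Gc

/-- weighted jets: `B = ρ D n`, `j0 = u / ρ`, `j1 = D u`, `j2 = ρ D D u`, `V1 = ρ D V`,
`V2 = ρ² D D V`, `Vd = ρ² dr V`, `y1 = D y`, `y2 = ρ D D y`, `yd = ρ (dr y - y)`, `f0 = ρ φ`,
`f1 = ρ² D φ`, for the map `x + y + u V` and the multiplier function `φ` -/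
structure Fl (R : Type) where
  n : Fin 3 → R
  B : Fin 3 → Fin 3 → R
  j0 : R
  j1 : Fin 3 → R
  j2 : Fin 3 → Fin 3 → R
  V : Fin 3 → R
  V1 : Fin 3 → Fin 3 → R
  V2 : Fin 3 → Fin 3 → Fin 3 → R
  Vd : Fin 3 → R
  y1 : Fin 3 → Fin 3 → R
  y2 : Fin 3 → Fin 3 → Fin 3 → R
  yd : Fin 3 → R
  f0 : R
  f1 : Fin 3 → R

namespace Fl

variable {R : Type} [CommRing R] (F : Fl R)

/-- first derivatives of the map -/
def J (a c : Fin 3) : R := P0 F.n a c + (F.y1 a c + (F.j1 a * F.V c + F.j0 * F.V1 a c))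

/-- `ρ` times the second derivatives -/
def K (a b c : Fin 3) : R := K0 F.n F.B a b c + (F.y2 a b c +
  (F.j2 a b * F.V c + F.j1 b * F.V1 a c + F.j1 a * F.V1 b c + F.j0 * F.V2 a b c))

/-- normal -/
def N : Fin 3 → R := Nv F.n F.J

/-- squared density -/
def G : R := G2 F.n F.J

/-- `⟨N, V⟩` -/
def NV : R := dot F.N F.V

/-- `1 - u φ` -/
def d3 : R := 1 - F.j0 * F.f0

/-- drift numerator -/
def E2 : R := 2 * (∑ a, F.B a a) * dot F.n F.N - F.j0 * dot F.Vd F.N - dot F.yd F.N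

/-- multiplier numerator -/
def E3 : R := F.G * F.f0 - ∑ a, dot (Wv F.J a) F.V * (F.j1 a * F.f0 + F.j0 * F.f1 a)

/-- `ρ (2 EQ - (dr u - u))` -/
def E : R := 2 * HP F.n F.J F.K * Ring.inverse (F.G * F.NV) - F.E2 * Ring.inverse F.NV
  - 2 * F.E3 * Ring.inverse (F.NV * F.NV * F.d3)

/-- the denominators are invertible -/
structure U : Prop where
  G : IsUnit F.G
  NV : IsUnit F.NV
  d3 : IsUnit F.d3

variable {R' : Type} [CommRing R'] (φ : R →+* R')

/-- image under a ring homomorphism -/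
def map : Fl R' where
  n a := φ (F.n a)
  B a b := φ (F.B a b)
  j0 := φ F.j0
  j1 a := φ (F.j1 a)
  j2 a b := φ (F.j2 a b)
  V c := φ (F.V c)
  V1 a c := φ (F.V1 a c)
  V2 a b c := φ (F.V2 a b c)
  Vd c := φ (F.Vd c)
  y1 a c := φ (F.y1 a c)
  y2 a b c := φ (F.y2 a b c)
  yd c := φ (F.yd c)
  f0 := φ F.f0
  f1 a := φ (F.f1 a)

theorem map_J : (F.map φ).J = fun a c => φ (F.J a c) := by
  funext a c
  simp only [J, map, P0, map_add, map_sub, map_mul, apply_ite φ, map_one, map_zero]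

theorem map_K : (F.map φ).K = fun a b c => φ (F.K a b c) := by
  funext a b c
  simp only [K, map, K0, map_add, map_sub, map_mul, map_neg]

theorem map_N : (F.map φ).N = fun c => φ (F.N c) := by
  funext c
  simp only [N, map_J, map_Nv]; rfl

theorem map_G : (F.map φ).G = φ F.G := by
  simp only [G, map_J, map_G2]; rfl

theorem map_NV : (F.map φ).NV = φ F.NV := by
  simp only [NV, map_N, map_dot]; rfl

theorem map_d3 : (F.map φ).d3 = φ F.d3 := by
  simp only [d3, map, map_sub, map_mul, map_one]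

theorem map_E2 : (F.map φ).E2 = φ F.E2 := by
  simp only [E2, map_N, map_dot, map_sub, map_mul, map_sum, map_ofNat]; rfl

theorem map_E3 : (F.map φ).E3 = φ F.E3 := by
  simp only [E3, map_G, map_J, map_dot, map_sub, map_mul, map_sum, map_add, map_Wv]; rfl

theorem map_HP' : HP (F.map φ).n (F.map φ).J (F.map φ).K = φ (HP F.n F.J F.K) := by
  simp only [map_J, map_K, map_HP]; rfl

theorem map_inv {a : R} (h : IsUnit a) : φ (Ring.inverse a) = Ring.inverse (φ a) := by
  refine ((Ring.eq_mul_inverse_iff_mul_eq _ 1 _ (h.map φ)).2 ?_).trans (one_mul _)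
  rw [← map_mul, Ring.inverse_mul_cancel _ h, map_one]

variable {F}

theorem U.map (h : F.U) : (F.map φ).U :=
  ⟨by rw [map_G]; exact h.G.map φ, by rw [map_NV]; exact h.NV.map φ,
    by rw [map_d3]; exact h.d3.map φ⟩

theorem U.map_E (h : F.U) : (F.map φ).E = φ F.E := by
  simp only [E, map_HP', map_G, map_NV, map_d3, map_E2, map_E3, map_sub, map_mul, map_ofNat,
    map_inv φ (h.G.mul h.NV), map_inv φ h.NV, map_inv φ ((h.NV.mul h.NV).mul h.d3)]

/-- the base point -/
structure Bp (F : Fl R) : Prop where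
  sh : Sh F.n F.B
  nV : dot F.n F.V = 1
  j0 : F.j0 = 0
  j1 : ∀ a, F.j1 a = 0
  j2 : ∀ a b, F.j2 a b = 0
  y1 : ∀ a c, F.y1 a c = 0
  y2 : ∀ a b c, F.y2 a b c = 0
  yd : ∀ c, F.yd c = 0
  f0 : F.f0 = 0

namespace Bp

variable (h : F.Bp)
include h

theorem J : F.J = P0 F.n := by
  funext a c
  simp [Fl.J, h.j0, h.j1, h.y1]

theorem K : F.K = K0 F.n F.B := by
  funext a b c
  simp [Fl.K, h.j0, h.j1, h.j2, h.y2]

theorem N : F.N = F.n := by rw [Fl.N, h.J, Nv_P0]
theorem G : F.G = 1 := by rw [Fl.G, h.J, G2_P0 h.sh.nn]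
theorem NV : F.NV = 1 := by rw [Fl.NV, h.N, h.nV]
theorem d3 : F.d3 = 1 := by simp [Fl.d3, h.j0]

theorem E : F.E = 0 := by
  have : dot F.n F.n = 1 := h.sh.nn
  simp only [Fl.E, E2, E3, h.J, h.K, h.N, h.G, h.NV, h.d3, h.sh.HP_P0, h.j0, h.f0, this]
  simp [dot, h.yd]

end Bp

end Fl

section Hol

variable {A : Type} [NormedCommRing A] [NormedAlgebra ℂ A] [CompleteSpace A]
  {W : Type} [NormedAddCommGroup W] [NormedSpace ℂ W]

/-- a family of jets, differentiable at `z` -/
structure DF (F : W → Fl A) (n : Fin 3 → A) (z : W) : Prop where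
  n : ∀ v, (F v).n = n
  B : ∀ a b, DifferentiableAt ℂ (fun v => (F v).B a b) z
  j0 : DifferentiableAt ℂ (fun v => (F v).j0) z
  j1 : ∀ a, DifferentiableAt ℂ (fun v => (F v).j1 a) z
  j2 : ∀ a b, DifferentiableAt ℂ (fun v => (F v).j2 a b) z
  V : ∀ c, DifferentiableAt ℂ (fun v => (F v).V c) z
  V1 : ∀ a c, DifferentiableAt ℂ (fun v => (F v).V1 a c) z
  V2 : ∀ a b c, DifferentiableAt ℂ (fun v => (F v).V2 a b c) z
  Vd : ∀ c, DifferentiableAt ℂ (fun v => (F v).Vd c) z
  y1 : ∀ a c, DifferentiableAt ℂ (fun v => (F v).y1 a c) z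
  y2 : ∀ a b c, DifferentiableAt ℂ (fun v => (F v).y2 a b c) z
  yd : ∀ c, DifferentiableAt ℂ (fun v => (F v).yd c) z
  f0 : DifferentiableAt ℂ (fun v => (F v).f0) z
  f1 : ∀ a, DifferentiableAt ℂ (fun v => (F v).f1 a) z

variable {F : W → Fl A} {n : Fin 3 → A} {z : W}

omit [CompleteSpace A] in
theorem hd {f : W → A} (h : DifferentiableAt ℂ f z) : HD ℂ f z (fderiv ℂ f z) := ⟨h, fun _ => rfl⟩

omit [CompleteSpace A] in
theorem dot_diff {u v : W → Fin 3 → A} (hu : ∀ c, DifferentiableAt ℂ (u · c) z)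
    (hv : ∀ c, DifferentiableAt ℂ (v · c) z) : DifferentiableAt ℂ (fun y => dot (u y) (v y)) z :=
  DifferentiableAt.fun_sum fun c _ => (hu c).mul (hv c)

namespace DF

variable (h : DF F n z)
include h

omit [CompleteSpace A] in
theorem J (a c : Fin 3) : DifferentiableAt ℂ (fun v => (F v).J a c) z := by
  simp only [Fl.J, h.n]
  exact (differentiableAt_const _).add ((h.y1 a c).add
    (((h.j1 a).mul (h.V c)).add (h.j0.mul (h.V1 a c))))

omit [CompleteSpace A] in
theorem K (a b c : Fin 3) : DifferentiableAt ℂ (fun v => (F v).K a b c) z := by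
  simp only [Fl.K, h.n, K0]
  exact ((((h.B a b).mul_const _).neg).sub ((h.B a c).const_mul _)).add ((h.y2 a b c).add
    (((((h.j2 a b).mul (h.V c)).add ((h.j1 b).mul (h.V1 a c))).add
      ((h.j1 a).mul (h.V1 b c))).add (h.j0.mul (h.V2 a b c))))

omit [CompleteSpace A] in
theorem N (c : Fin 3) : DifferentiableAt ℂ (fun v => (F v).N c) z := by
  simp only [Fl.N, h.n]
  exact (HD.Nv (J := fun v => (F v).J) (J' := fun w a c => fderiv ℂ (fun v => (F v).J a c) z w) n
    (fun a c => hd (h.J a c)) c).diff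

omit [CompleteSpace A] in
theorem G : DifferentiableAt ℂ (fun v => (F v).G) z := by
  have := dot_diff h.N h.N
  exact this

omit [CompleteSpace A] in
theorem NV : DifferentiableAt ℂ (fun v => (F v).NV) z := dot_diff h.N h.V

omit [CompleteSpace A] in
theorem d3 : DifferentiableAt ℂ (fun v => (F v).d3) z :=
  (differentiableAt_const _).sub (h.j0.mul h.f0)

theorem E (hu : (F z).U) : DifferentiableAt ℂ (fun v => (F v).E) z := by
  have hH : DifferentiableAt ℂ (fun v => HP (F v).n (F v).J (F v).K) z := by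
    simp only [h.n]
    exact (HD.HP (J := fun v => (F v).J) (J' := fun w a c => fderiv ℂ (fun v => (F v).J a c) z w)
      (K := fun v => (F v).K) (K' := fun w a b c => fderiv ℂ (fun v => (F v).K a b c) z w) n
      (fun a c => hd (h.J a c)) fun a b c => hd (h.K a b c)).diff
  have hW : ∀ a c, DifferentiableAt ℂ (fun v => Wv (F v).J a c) z := fun a c =>
    (HD.Wv (J := fun v => (F v).J) (J' := fun w a c => fderiv ℂ (fun v => (F v).J a c) z w)
      (fun a c => hd (h.J a c)) a c).diff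
  have hn : ∀ c, DifferentiableAt ℂ (fun v => (F v).n c) z := fun c => by
    simp only [h.n]; exact differentiableAt_const _
  have h2 : DifferentiableAt ℂ (fun v => (F v).E2) z :=
    ((((DifferentiableAt.fun_sum fun a _ => h.B a a).const_mul 2).mul (dot_diff hn h.N)).sub
      (h.j0.mul (dot_diff h.Vd h.N))).sub (dot_diff h.yd h.N)
  have h3 : DifferentiableAt ℂ (fun v => (F v).E3) z :=
    (h.G.mul h.f0).sub (DifferentiableAt.fun_sum fun a _ => (dot_diff (hW a) h.V).mul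
      (((h.j1 a).mul h.f0).add (h.j0.mul (h.f1 a))))
  exact (((hH.const_mul 2).mul ((hd (h.G.mul h.NV)).inverse (hu.G.mul hu.NV)).diff).sub
    (h2.mul ((hd h.NV).inverse hu.NV).diff)).sub ((h3.const_mul 2).mul
      ((hd ((h.NV.mul h.NV).mul h.d3)).inverse ((hu.NV.mul hu.NV).mul hu.d3)).diff)

theorem ev_U (hb : (F z).Bp) : ∀ᶠ v in 𝓝 z, (F v).U := by
  have key : ∀ {f : W → A}, DifferentiableAt ℂ f z → f z = 1 → ∀ᶠ v in 𝓝 z, IsUnit (f v) :=
    fun hf e => hf.continuousAt.eventually (Units.isOpen.mem_nhds (by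
      rw [e]; exact isUnit_one))
  filter_upwards [key h.G hb.G, key h.NV hb.NV, key h.d3 hb.d3] with v a b c using ⟨a, b, c⟩

end DF

end Hol

end Crest.Agent.N250.Nq

end
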