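import Crest.Agent.N250.Gc.Par
import Crest.Agent.N250.Wt.Base

/-!
# Row 250 (helper71): the linearisation of the shrinker expression `EL` at a shrinker
-/

set_option autoImplicit false

noncomputable section

namespace Crest.Agent.N250

open Gc

namespace Nq

/-- value and derivative at `0` -/
structure Dv (f : ℂ → ℂ) (a b : ℂ) : Prop where
  val : f 0 = a
  der : HasDerivAt f b 0

namespace Dv

variable {f g : ℂ → ℂ} {a b a' b' : ℂ}

theorem congr (h : Dv f a b) (ha : a = a') (hb : b = b') : Dv f a' b' := ha ▸ hb ▸ h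
theorem const (a : ℂ) : Dv (fun _ => a) a 0 := ⟨rfl, hasDerivAt_const _ _⟩
theorem id : Dv (fun s => s) 0 1 := ⟨rfl, hasDerivAt_id _⟩
theorem add (h : Dv f a b) (k : Dv g a' b') : Dv (fun s => f s + g s) (a + a') (b + b') :=
  ⟨by rw [h.val, k.val], h.der.add k.der⟩
theorem sub (h : Dv f a b) (k : Dv g a' b') : Dv (fun s => f s - g s) (a - a') (b - b') :=
  ⟨by rw [h.val, k.val], h.der.sub k.der⟩
theorem neg (h : Dv f a b) : Dv (fun s => -f s) (-a) (-b) := ⟨by rw [h.val], h.der.neg⟩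
theorem mul (h : Dv f a b) (k : Dv g a' b') :
    Dv (fun s => f s * g s) (a * a') (b * a' + a * b') :=
  ⟨by rw [h.val, k.val], by rw [← h.val, ← k.val]; exact h.der.mul k.der⟩
theorem inv (h : Dv f a b) (ha : a ≠ 0) : Dv (fun s => (f s)⁻¹) a⁻¹ (-b / a ^ 2) :=
  ⟨by rw [h.val], by rw [← h.val] at ha ⊢; exact h.der.inv ha⟩
theorem sum {κ : Type} [Fintype κ] {f : κ → ℂ → ℂ} {a b : κ → ℂ} (h : ∀ i, Dv (f i) (a i) (b i)) :
    Dv (fun s => ∑ i, f i s) (∑ i, a i) (∑ i, b i) :=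
  ⟨by simp only [(h _).val], HasDerivAt.fun_sum fun i _ => (h i).der⟩
theorem ite {c : Prop} [Decidable c] (h : Dv f a b) :
    Dv (fun s => if c then f s else 0) (if c then a else 0) (if c then b else 0) := by
  split_ifs
  exacts [h, const 0]
theorem dot {u v : ℂ → Fin 3 → ℂ} {a b a' b' : Fin 3 → ℂ} (h : ∀ c, Dv (u · c) (a c) (b c))
    (k : ∀ c, Dv (v · c) (a' c) (b' c)) :
    Dv (fun s => dot (u s) (v s)) (dot a a') (dot b a' + dot a b') :=
  (sum fun c => (h c).mul (k c)).congr rfl Finset.sum_add_distrib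

end Dv

/-- the projection with normal `n` -/
def pj {R : Type} [CommRing R] (n : Fin 3 → R) (a b : Fin 3) : R :=
  (if a = b then 1 else 0) - n a * n b

theorem Nv_pj {R : Type} [CommRing R] (n : Fin 3 → R) (c : Fin 3) : Nv n (pj n) c = n c := by
  refine fin3 (P := fun c => Nv n (pj n) c = n c) ?_ ?_ ?_ c <;>
    simp [Nv, cr, pj, Fin.sum_univ_three, f11, f12, f21, f22] <;> ring

variable {n x V : Fin 3 → ℂ} {B U : Fin 3 → Fin 3 → ℂ} {Y : Fin 3 → Fin 3 → Fin 3 → ℂ}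
  {X : ℂ → Fin 3 → ℂ} {J : ℂ → Fin 3 → Fin 3 → ℂ} {K : ℂ → Fin 3 → Fin 3 → Fin 3 → ℂ}

theorem dv_N (hJ : ∀ a c, Dv (J · a c) (pj n a c) (U a c)) (c : Fin 3) :
    Dv (fun s => Nv n (J s) c) (n c) ((∑ a, U a a) * n c - dot (U c) n) := by
  refine (Dv.sum fun a => (Dv.const (n a)).mul (((hJ (a + 1) (c + 1)).mul (hJ (a + 2) (c + 2))).sub
    ((hJ (a + 1) (c + 2)).mul (hJ (a + 2) (c + 1))))).congr (Nv_pj n c) ?_
  revert c
  refine fin3 ?_ ?_ ?_ <;>
    simp [pj, Gc.dot, Fin.sum_univ_three, f11, f12, f21, f22] <;> ring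

/-- the pointwise linearisation -/
theorem dv_EL (nn : ∑ a, n a * n a = 1) (nU : ∀ c, ∑ a, n a * U a c = 0)
    (nY : ∀ b c, ∑ a, n a * Y a b c = 0) (Bs : ∀ a b, B a b = B b a)
    (nB : ∀ b, ∑ a, n a * B a b = 0) (hs : dot x n = 2 * ∑ a, B a a)
    (hX : ∀ c, Dv (X · c) (x c) (V c)) (hJ : ∀ a c, Dv (J · a c) (pj n a c) (U a c))
    (hK : ∀ a b c, Dv (K · a b c) (-(B a b * n c) - n b * B a c) (Y a b c)) :
    Dv (fun s => G2 n (J s)) 1 (2 * ∑ a, U a a) ∧
    Dv (fun s => EL n (X s) (J s) (K s)) 0 (-2 * (∑ a, dot (Y a a) n + 2 * ∑ a, ∑ c, B a c * U a c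
      - 1 / 2 * ∑ a, x a * dot (U a) n + 1 / 2 * dot V n)) := by
  have hN := dv_N hJ
  have e1 : dot (fun c => (∑ a, U a a) * n c - dot (U c) n) n = ∑ a, U a a := by
    have h0 := nU 0; have h1 := nU 1; have h2 := nU 2
    simp only [Gc.dot, Fin.sum_univ_three] at nn h0 h1 h2 ⊢
    linear_combination (U 0 0 + U 1 1 + U 2 2) * nn - n 0 * h0 - n 1 * h1 - n 2 * h2
  have hG : Dv (fun s => G2 n (J s)) 1 (2 * ∑ a, U a a) :=
    (Dv.dot hN hN).congr nn (by rw [dot_comm n, e1]; ring)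
  have hg : ∀ a b, Dv (fun s => gm (J s) a b) (pj n a b)
      (U a b + U b a - n b * dot (U a) n - n a * dot (U b) n) := fun a b => by
    refine (Dv.dot (hJ a) (hJ b)).congr ?_ ?_
    · have : ∀ a b, dot (pj n a) (pj n b) = pj n a b + n a * n b * (∑ a, n a * n a - 1) := by
        refine fin3 ?_ ?_ ?_ <;> refine fin3 ?_ ?_ ?_ <;>
          simp [pj, Gc.dot, Fin.sum_univ_three] <;> ring
      rw [this, nn]; ring
    · have : ∀ b (w : Fin 3 → ℂ), dot w (pj n b) = w b - n b * dot w n := by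
        refine fin3 ?_ ?_ ?_ <;> intro w <;> simp [pj, Gc.dot, Fin.sum_univ_three] <;> ring
      rw [dot_comm (pj n a), this, this]; ring
  have ht : Dv (fun s => ∑ e, gm (J s) e e) 2 (2 * ∑ a, U a a) := by
    refine (Dv.sum fun e => hg e e).congr ?_ ?_
    · simp only [pj, Fin.sum_univ_three, if_true] at nn ⊢
      linear_combination -nn
    · have h0 := nU 0; have h1 := nU 1; have h2 := nU 2
      simp only [Gc.dot, Fin.sum_univ_three] at h0 h1 h2 ⊢
      linear_combination -2 * n 0 * h0 - 2 * n 1 * h1 - 2 * n 2 * h2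
  have hKN : ∀ a b, Dv (fun s => dot (K s a b) (Nv n (J s))) (-B a b)
      (dot (Y a b) n - B a b * ∑ a, U a a + n b * ∑ c, B a c * dot (U c) n) := fun a b => by
    have h0 := nB a
    simp only [Bs _ a] at h0
    refine (Dv.dot (hK a b) hN).congr ?_ ?_
    · simp only [Gc.dot, Fin.sum_univ_three] at nn h0 ⊢
      linear_combination -B a b * nn - n b * h0
    · have : dot (fun c => -(B a b * n c) - n b * B a c)
          (fun c => (∑ a, U a a) * n c - dot (U c) n) =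
          -B a b * dot (fun c => (∑ a, U a a) * n c - dot (U c) n) n
          - n b * (∑ a, U a a) * ∑ c, n c * B a c + n b * ∑ c, B a c * dot (U c) n := by
        simp only [Gc.dot, Fin.sum_univ_three]; ring
      rw [this, e1, h0]; ring
  have hH : Dv (fun s => HP n (J s) (K s)) (∑ a, B a a)
      (3 * (∑ a, B a a) * ∑ a, U a a - 2 * ∑ a, ∑ c, B a c * U a c - ∑ a, dot (Y a a) n) := by
    have b0 := nB 0; have b1 := nB 1; have b2 := nB 2
    have s01 := Bs 1 0; have s02 := Bs 2 0; have s12 := Bs 2 1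
    refine (Dv.sum fun a => Dv.sum fun b =>
      (((ht.ite (c := a = b)).sub (hg a b)).mul (hKN a b))).neg.congr ?_ ?_
    · simp [pj, Fin.sum_univ_three, s01, s02, s12] at b0 b1 b2 ⊢
      linear_combination n 0 * b0 + n 1 * b1 + n 2 * b2
    · have y0 : ∑ a, n a * dot (Y a 0) n = 0 := by
        have := nY 0 0; have := nY 0 1; have := nY 0 2
        simp only [Gc.dot, Fin.sum_univ_three] at *
        linear_combination n 0 * ‹n 0 * Y 0 0 0 + _ + _ = 0› + n 1 * ‹n 0 * Y 0 0 1 + _ + _ = 0› +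
          n 2 * ‹n 0 * Y 0 0 2 + _ + _ = 0›
      have y1 : ∑ a, n a * dot (Y a 1) n = 0 := by
        have := nY 1 0; have := nY 1 1; have := nY 1 2
        simp only [Gc.dot, Fin.sum_univ_three] at *
        linear_combination n 0 * ‹n 0 * Y 0 1 0 + _ + _ = 0› + n 1 * ‹n 0 * Y 0 1 1 + _ + _ = 0› +
          n 2 * ‹n 0 * Y 0 1 2 + _ + _ = 0›
      have y2 : ∑ a, n a * dot (Y a 2) n = 0 := by
        have := nY 2 0; have := nY 2 1; have := nY 2 2
        simp only [Gc.dot, Fin.sum_univ_three] at *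
        linear_combination n 0 * ‹n 0 * Y 0 2 0 + _ + _ = 0› + n 1 * ‹n 0 * Y 0 2 1 + _ + _ = 0› +
          n 2 * ‹n 0 * Y 0 2 2 + _ + _ = 0›
      generalize dot (U 0) n = w0, dot (U 1) n = w1, dot (U 2) n = w2 at *
      simp [pj, Fin.sum_univ_three, s01, s02, s12] at nn b0 b1 b2 y0 y1 y2 ⊢
      generalize dot (U 0) n = w0, dot (U 1) n = w1, dot (U 2) n = w2
      linear_combination (-(n 0) * y0 - n 1 * y1 - n 2 * y2)
        + (U 0 0 + U 1 1 + U 2 2) * (n 0 * b0 + n 1 * b1 + n 2 * b2)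
        + (1 - (n 0 * n 0 + n 1 * n 1 + n 2 * n 2)) * (w0 * b0 + w1 * b1 + w2 * b2)
  refine ⟨hG, (((Dv.const 2).mul hH).sub ((Dv.dot hX hN).mul hG)).congr (by rw [hs]; ring) ?_⟩
  have e2 : dot x (fun c => (∑ a, U a a) * n c - dot (U c) n) =
      (∑ a, U a a) * dot x n - ∑ a, x a * dot (U a) n := by
    simp only [Gc.dot, Fin.sum_univ_three]; ring
  rw [e2, hs]; ring

end Nq

namespace Mov.IsHyp

variable {R : Type} [CommRing R] [Algebra ℝ R] {S : Mov R (Fin 3)} (H : S.IsHyp)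
include H

theorem Bx_shr (hs : S.xn = 2 * S.h) (a : Fin 3) : ∑ b, S.B a b * S.x b = 2 * S.D a S.h := by
  rw [← H.D_xn, hs, two_mul, two_mul, H.add]

/-- the Jacobi operator on the normal component of a field -/
theorem LL_dot (hs : S.xn = 2 * S.h) (V : Fin 3 → R) : S.LL (dot V S.n) =
    ∑ a, dot (S.Km V a a) S.n + 2 * ∑ a, ∑ c, S.B a c * S.Jm V a c
      - algebraMap ℝ R (1 / 2) * ∑ a, S.x a * dot (S.Jm V a) S.n
      + algebraMap ℝ R (1 / 2) * dot V S.n := by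
  have h2 : algebraMap ℝ R (1 / 2) * 2 = 1 := by
    rw [← map_ofNat (algebraMap ℝ R) 2, ← map_mul]; norm_num
  have d1 : ∀ a, S.D a (dot V S.n) = dot V (S.B a) + dot (S.Jm V a) S.n := fun a => H.D_dot _ _ _
  have d2 : ∀ a, S.D a (S.D a (dot V S.n)) = dot V (fun c => S.D a (S.B a c))
      + 2 * dot (S.Jm V a) (S.B a) + dot (S.Km V a a) S.n := fun a => by
    rw [d1, H.add, H.D_dot, H.D_dot]
    change _ + dot (S.Jm V a) (S.B a) + (dot (S.Jm V a) (S.B a) + dot (S.Km V a a) S.n) = _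
    ring
  have b0 := H.dv_B 0; have b1 := H.dv_B 1; have b2 := H.dv_B 2
  have x0 := H.Bx_shr hs 0; have x1 := H.Bx_shr hs 1; have x2 := H.Bx_shr hs 2
  simp only [LL, Mi, Pi, dr, N222.Pre.lap, d2]
  simp only [d1]
  simp only [dot, Fin.sum_univ_three, H.B_symm 1 0, H.B_symm 2 0, H.B_symm 2 1, Nat.cast_zero]
    at b0 b1 b2 x0 x1 x2 ⊢
  linear_combination V 0 * b0 + V 1 * b1 + V 2 * b2
    - algebraMap ℝ R (1 / 2) * (V 0 * x0 + V 1 * x1 + V 2 * x2)
    - (V 0 * S.D 0 S.h + V 1 * S.D 1 S.h + V 2 * S.D 2 S.h) * h2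

end Mov.IsHyp

end Crest.Agent.N250

end
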