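import Crest.Agent.N250.Nq.Main0

/-!
# Row 250 (helper71): the core nonlinearity `NL`: holomorphy, values, conjugation
-/

set_option autoImplicit false
set_option linter.unusedSectionVars false
open Filter Topology Set
open scoped NNReal ComplexConjugate

noncomputable section

namespace Crest.Agent.N250.Nq

open Gc WS

theorem fd_ev' {V A : Type} [NormedAddCommGroup V] [NormedSpace ℂ V] [NormedAddCommGroup A]
    [NormedSpace ℂ A] {f : V → A} (hf : DifferentiableAt ℂ f 0) (L : A →L[ℂ] ℂ) {v : V}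
    {γ : ℂ → V} (hγ : ∀ s, γ s = s • v) {P : V → Prop} (hP : ∀ᶠ v in 𝓝 0, P v) {e : ℂ → ℂ}
    {a b c d : ℂ} (he : HasDerivAt e d 0)
    (h : ∀ s, P (γ s) → L (f (γ s)) = 1 / 2 * (a * (b * (2 * e s - s * c)))) :
    L (fderiv ℂ f 0 v) = 1 / 2 * (a * (b * (2 * d - c))) :=
  fd_ev hf L v he ((ev_line hP v).mono fun s hs => by rw [← hγ] at hs ⊢; exact h s hs)

variable {X : Type} [TopologicalSpace X] [MeasurableSpace X] [BorelSpace X] {G : Geo X}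
  {σ : Scale G} {J κ : Type} [Fintype J] [Fintype κ] {D : Dt G J κ}

namespace Dt

variable (g : D.Good) (o : D.Ok σ.ε)
include g o

theorem ev_fd {v : Vr σ J κ} {u : G.SmC} {p : X} (h : At v u p) :
    (σ.val (fderiv ℂ (D.FF σ) 0 v)).1 p = 1 / 2 * (D.cut.1 p * (G.ρ.1 p *
      (2 * -((G.SC.LL u).1 p + (G.SC.LL (dot (D.yy v.2.2.2.1) G.SC.n)).1 p + (D.ph v.2.2.2.2).1 p)
        - (G.SC.dr u - u).1 p))) := by
  have h0 := (hol_FF g o).self_of_nhds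
  have h1 := (D.dv_EQ u v.2.2.2.1 v.2.2.2.2 p g.nZ).der
  refine (σ.evL_apply p _).symm.trans
    (fd_ev' h0 (σ.evL p) (γ := fun s => s • v) (fun _ => rfl) (ev_U g o) h1 fun s hs => ?_)
  have := (ev_FF o (h.smul s) hs).2
  rw [G.dr_smul, ← smul_sub, smul_val] at this
  simp only [Prod.smul_snd, Prod.smul_fst] at this
  rw [σ.evL_apply]
  exact this

theorem ev_NL : ∀ᶠ v in 𝓝 (0 : Vr σ J κ), ∀ u p, At v u p → D.Nd u v.2.2.2.1 v.2.2.2.2 p ∧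
    (σ.val (D.NL σ v)).1 p = D.cut.1 p * G.ρ.1 p * (D.EQ u v.2.2.2.1 v.2.2.2.2 p + (G.SC.LL u).1 p
      + (G.SC.LL (dot (D.yy v.2.2.2.1) G.SC.n)).1 p + (D.ph v.2.2.2.2).1 p) :=
  (ev_U g o).mono fun v hv u p h => ⟨(ev_FF o h hv).1, by
    rw [← σ.evA_apply, NL, map_sub, σ.evA_apply, σ.evA_apply, (ev_FF o h hv).2, ev_fd g o h]
    ring⟩

theorem ev_NQ : ∀ᶠ v in 𝓝 (0 : Vr σ J κ), ∀ u p, At v u p → D.Nd u v.2.2.2.1 v.2.2.2.2 p ∧
    (σ.val (D.NQ σ v)).1 p = D.cut.1 p * G.ρ.1 p * (D.EQ u v.2.2.2.1 v.2.2.2.2 p + (G.SC.LL u).1 p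
      + (D.ph v.2.2.2.2).1 p) :=
  (ev_NL g o).mono fun v hv u p h => ⟨(hv u p h).1, by
    rw [← σ.evA_apply, NQ, map_sub, σ.evA_apply, σ.evA_apply, (hv u p h).2, val_rot o,
      ← evC_eq p (_ * _), map_mul, map_mul, map_mul]
    simp only [evC_eq, G.oR_apply]
    ring⟩

theorem NL_off (v : Vr σ J κ) {p : X} (hp : D.cut.1 p = 0) : (σ.val (D.NL σ v)).1 p = 0 := by
  have h0 : ∀ v, σ.evL p (D.FF σ v) = 0 := fun v => by
    rw [σ.evL_apply, ← σ.evA_apply, FF, map_smul, map_mul, σ.evA_apply, val_tr o.cut, G.oR_apply,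
      hp]
    simp
  have h1 := (σ.evL p).hasFDerivAt.comp_hasDerivAt 0 (line g o v)
  have h2 : σ.evL p (fderiv ℂ (D.FF σ) 0 v) = 0 :=
    h1.unique ((hasDerivAt_const _ _).congr_of_eventuallyEq (.of_forall fun s => h0 _))
  rw [← σ.evL_apply, NL, map_sub, h0, h2, sub_zero]

theorem NQ_off (v : Vr σ J κ) {p : X} (hp : D.cut.1 p = 0) : (σ.val (D.NQ σ v)).1 p = 0 := by
  rw [← σ.evA_apply, NQ, map_sub, σ.evA_apply, σ.evA_apply, NL_off g o v hp, val_rot o,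
    ← evC_eq p (_ * _), map_mul, map_mul, map_mul, evC_eq, G.oR_apply, hp]
  simp

theorem cj_FF : ∀ᶠ v in 𝓝 (0 : Vr σ J κ), D.FF σ (cjV v) = σ.cj (D.FF σ v) :=
  (ev_U g o).mono fun v h => by
    rw [FF, FF, fl_cj, h.map_E, σ.cj_smul, map_mul, cj_tr, map_div₀, map_one, map_ofNat]

omit g o in
theorem cjV_smul (s : ℂ) (v : Vr σ J κ) : cjV (s • v) = conj s • cjV v := by
  simp only [cjV, Prod.smul_fst, Prod.smul_snd, Pi.smul_apply, σ.cj_smul, star_smul, Prod.smul_mk]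
  rfl

theorem cj_fd (v : Vr σ J κ) : fderiv ℂ (D.FF σ) 0 (cjV v) = σ.cj (fderiv ℂ (D.FF σ) 0 v) :=
  fd_cj (hol_FF g o).self_of_nhds σ.cjL cjV_smul (cj_FF g o) v

theorem cj_NL : ∀ᶠ v in 𝓝 (0 : Vr σ J κ), D.NL σ (cjV v) = σ.cj (D.NL σ v) :=
  (cj_FF g o).mono fun v h => by rw [NL, NL, h, cj_fd g o, map_sub]

omit g o in
theorem cj_rot (T : Mt J) : D.rot σ (star T) = σ.cj (D.rot σ T) := by
  simp only [rot, sum_apply, ContinuousLinearMap.smulRight_apply,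
    ContinuousLinearMap.comp_apply, ContinuousLinearMap.proj_apply, map_sum, σ.cj_smul, cj_tr]
  rfl

theorem cj_NQ : ∀ᶠ v in 𝓝 (0 : Vr σ J κ), D.NQ σ (cjV v) = σ.cj (D.NQ σ v) :=
  (cj_NL g o).mono fun v h => by rw [NQ, NQ, h, map_sub, ← cj_rot]; rfl

omit g o in
theorem Nd.EQ_eq_zero_iff {u : G.SmC} {T : Mt J} {c : κ → ℂ} {p : X} (h : D.Nd u T c p) :
    D.EQ u T c p = 0 ↔ (G.SC.ELX (D.Xh u T)).1 p * (D.NZ u T).1 p * (1 - u.1 p * (D.ph c).1 p) =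
      2 * (G.SC.GX (D.Xh u T)).1 p * (D.Mu u T c).1 p := by
  obtain ⟨h1, h2, h3⟩ := h
  rw [EQ, sub_eq_zero, div_eq_div_iff (mul_ne_zero (mul_ne_zero two_ne_zero h1) h2)
    (mul_ne_zero (pow_ne_zero _ h2) h3)]
  constructor <;> intro h
  · refine mul_right_cancel₀ h2 ?_
    linear_combination h
  · linear_combination (D.NZ u T).1 p * h

omit g o in
theorem Xh_eq (u : G.SmC) (T : Mt J) (c : Fin 3) : D.Xh u T c = G.SC.x c + u * G.oR (D.Z c) +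
    ∑ j, G.oR (D.χ j) * ∑ d, T j c d • (G.SC.x d + u * G.oR (D.Z d)) := by
  simp only [Xh, yy, VV, mv, Pi.add_apply, map_mul, mul_add, Finset.mul_sum, smul_add,
    mul_smul_comm, Finset.sum_add_distrib, G.SC_x, mul_left_comm u]
  ring

end Dt

theorem at_jets {κ' : Type} [Fintype κ'] {ψ : κ' → G.R} (Jt : σ.Jets ψ) (ξ : σ.AA × (κ' → ℂ))
    (T : Mt J) (c : κ → ℂ) {p : X} (hp : G.ζ.1 p = 1) :
    At ((Jt.J0 ξ, fun a => Jt.J1 a ξ, fun a b => Jt.J2 a b ξ, T, c) : Vr σ J κ) (σ.wG ψ ξ) p := by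
  have hζ : (G.evC p).toRingHom (G.oR G.ζ) = 1 := by rw [evC_eq, G.oR_apply, hp]; rfl
  refine ⟨hp, ?_, fun a => ?_, fun a b => ?_⟩
  · rw [Jt.val0, map_mul, mul_assoc, ← evC_eq p (G.oR G.ζ * _), map_mul, hζ, one_mul, evC_eq]
  · rw [Jt.val1, ← evC_eq p (G.oR G.ζ * _), map_mul, hζ, one_mul, evC_eq]
  · rw [Jt.val2, map_mul, mul_assoc, ← evC_eq p (G.oR G.ζ * _), map_mul, hζ, one_mul, evC_eq]

end Crest.Agent.N250.Nq

end
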