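import Crest.Agent.N250.Nq.Defs

/-!
# Row 250 (helper71): the coefficients of the core nonlinearity are in the algebra
-/

set_option autoImplicit false
set_option linter.unusedSectionVars false
open Filter Topology Set
open scoped NNReal

noncomputable section

namespace Crest.Agent.N250.Nq

open Gc WS

variable {X : Type} [TopologicalSpace X] [MeasurableSpace X] {G : Geo X}

/-- functions vanishing off the support of `χ` -/
def vn (χ : G.R) : Ideal G.R where
  carrier := {f | ∀ p, p ∉ tsupport χ.1 → G.ev p f = 0}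
  add_mem' hf hg p hp := by rw [map_add, hf p hp, hg p hp, add_zero]
  zero_mem' p _ := map_zero _
  smul_mem' c f hf p hp := by rw [smul_eq_mul, map_mul, hf p hp, mul_zero]

variable {χ f : G.R}

theorem vn_mul (χ g : G.R) : χ * g ∈ vn χ :=
  Ideal.mul_mem_right _ _ fun _ hp => image_eq_zero_of_notMem_tsupport (f := χ.1) hp

theorem vn_D (h : f ∈ vn χ) (a : Fin 3) : G.S.D a f ∈ vn χ := fun _ hp =>
  Geo.D_eq_zero_of_notMem (fun hq => hp (closure_minimal
    (fun q (hq : _ ≠ _) => by_contra fun h' => hq (h q h')) (isClosed_tsupport _) hq)) a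

theorem vn_Dw (h : f ∈ vn χ) (l : List (Fin 3)) : G.S.Dw l f ∈ vn χ := by
  induction l with
  | nil => exact h
  | cons a l ih => exact vn_D ih a

theorem vn_dr (h : f ∈ vn χ) : G.S.dr f ∈ vn χ :=
  Ideal.sum_mem _ fun a _ => Ideal.mul_mem_left _ _ (vn_D h a)

theorem vn_LL (h : f ∈ vn χ) : G.S.LL f ∈ vn χ :=
  add_mem (sub_mem (Ideal.sum_mem _ fun a _ => vn_D (vn_D h a) a) (Ideal.mul_mem_left _ _
    (add_mem (vn_dr h) (Ideal.mul_mem_left _ _ h)))) (Ideal.mul_mem_left _ _ h)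

theorem fi_cs (h : HasCompactSupport f.1) : ∀ᶠ ε in admF, Fi G ε f :=
  Geo.NN_ne_top_of_cs (h.comp_left (g := fun r : ℝ => (r : ℂ)) Complex.ofReal_zero)

theorem fi_vn {s : G.R} (hc : HasCompactSupport (G.ζ * χ).1) (hs : ∀ p, s.1 p ≠ 0 → G.ζ.1 p ≠ 0)
    (h : f ∈ vn χ) : ∀ᶠ ε in admF, Fi G ε (s * f) := by
  refine fi_cs (hc.mono' fun p hp => ?_)
  have h1 : p ∈ Function.support G.ζ.1 := hs p (left_ne_zero_of_mul hp)
  have h2 : p ∈ tsupport χ.1 := by_contra fun h' => right_ne_zero_of_mul hp (h p h')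
  refine closure_mono (fun q hq => ?_) ((Geo.cont G.ζ).isOpen_support.inter_closure ⟨h1, h2⟩)
  exact mul_ne_zero hq.1 hq.2

theorem fi_ow (hc : HasCompactSupport (G.ζ * χ).1) (k : ℕ) (l : List (Fin 3)) (g : G.R) :
    ∀ᶠ ε in admF, Fi G ε (ow G k l (χ * g)) :=
  fi_vn hc (fun _ => id) (Ideal.mul_mem_left _ _ (vn_Dw (vn_mul χ g) l))

theorem fi_od (hc : HasCompactSupport (G.ζ * χ).1) (k : ℕ) (g : G.R) :
    ∀ᶠ ε in admF, Fi G ε (od G k (χ * g)) :=
  fi_vn hc (fun _ => id) (Ideal.mul_mem_left _ _ (vn_dr (vn_mul χ g)))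

theorem fi_sy (h : G.Sy 0 f) (l : List (Fin 3)) : ∀ᶠ ε in admF, Fi G ε (ow G l.length l f) :=
  Geo.Sy.NN_ne_top ((G.sy_ζ.mul ((G.sy_ρ_pow _).mul (h.Dw l))).cast (by ring))

variable {J κ : Type} [Fintype J] [Fintype κ] {D : Dt G J κ}

theorem Dt.Good.ok (g : D.Good) : ∀ᶠ ε in admF, D.Ok ε := by
  have a1 := eventually_all.2 fun a => (G.sy_n a).NN_ne_top
  have a2 := eventually_all.2 fun a => eventually_all.2 fun b =>
    ((G.sy_ρ.mul (G.sy_B a b)).cast (k' := 0) (by ring)).NN_ne_top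
  have a3 := eventually_all.2 fun c => (g.symZ c).NN_ne_top
  have a4 := eventually_all.2 fun a => eventually_all.2 fun c => fi_sy (g.symZ c) [a]
  have a5 := eventually_all.2 fun a => eventually_all.2 fun b => eventually_all.2 fun c =>
    fi_sy (g.symZ c) [a, b]
  have a6 : ∀ᶠ ε in admF, ∀ c, Fi G ε (od G 2 (D.Z c)) := eventually_all.2 fun c => by
    rw [od, mul_left_comm]
    exact (((G.sy_ρ_pow 2).mul (g.symZd c)).cast (k' := 0) (by norm_num)).NN_ne_top
  have b := fun k l (w : Fin 3 → G.R) => eventually_all.2 fun j => eventually_all.2 fun d =>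
    fi_ow (g.cχ j) k l (w d)
  have b1 := eventually_all.2 fun a => b 1 [a] D.Z
  have b2 := eventually_all.2 fun a => eventually_all.2 fun a' => b 2 [a, a'] D.Z
  have b3 := eventually_all.2 fun j => eventually_all.2 fun d => fi_od (g.cχ j) 2 (D.Z d)
  have b4 := eventually_all.2 fun a => b 0 [a] G.S.x
  have b5 := eventually_all.2 fun a => eventually_all.2 fun a' => b 1 [a, a'] G.S.x
  have b6 : ∀ᶠ ε in admF, ∀ j d, Fi G ε (od G 1 (D.χ j * G.S.x d) - ow G 1 [] (D.χ j * G.S.x d)) :=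
    eventually_all.2 fun j => eventually_all.2 fun d => by
      rw [od, ow, ← mul_sub, ← mul_sub]
      exact fi_vn (g.cχ j) (fun _ => id) (Ideal.mul_mem_left _ _
        (sub_mem (vn_dr (vn_mul _ _)) (vn_mul _ _)))
  have c1 : ∀ᶠ ε in admF, ∀ i, Fi G ε (G.ρ * D.φ i) := eventually_all.2 fun i =>
    fi_cs ((g.cφ i).mul_left (f := G.ρ.1))
  have c2 : ∀ᶠ ε in admF, ∀ a i, Fi G ε (G.ρ ^ 2 * G.S.D a (D.φ i)) :=
    eventually_all.2 fun a => eventually_all.2 fun i => fi_cs ((g.cφ i).mono' fun p hp =>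
      by_contra fun h => right_ne_zero_of_mul hp (Geo.D_eq_zero_of_notMem h a))
  have c3 : ∀ᶠ ε in admF, ∀ j c d, Fi G ε (D.cut * (G.ρ * G.S.LL (D.χ j * G.S.x d * G.n c))) :=
    eventually_all.2 fun j => eventually_all.2 fun c => eventually_all.2 fun d =>
      fi_vn (g.cχ j) (fun p hp => by rw [g.cut p hp]; exact one_ne_zero)
        (Ideal.mul_mem_left _ _ (vn_LL (Ideal.mul_mem_right _ _ (vn_mul _ _))))
  filter_upwards [a1, a2, a3, a4, a5, a6, b 0 [] D.Z, b1, b2, b3, b4, b5, b6, c1, c2,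
    g.symcut.NN_ne_top, c3] with ε a1 a2 a3 a4 a5 a6 b0 b1 b2 b3 b4 b5 b6 c1 c2 c0 c3
  exact ⟨a1, a2, a3, a4, a5, a6, b0, b1, b2, b3, b4, b5, b6, c1, c2, c0, c3⟩

end Crest.Agent.N250.Nq

end
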