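import Crest.Agent.N250.Nq.Pt
import Crest.Agent.N250.Nq.Ok
import Crest.Agent.N250.Gl.Out
import Crest.Agent.N250.Wt.Grn

/-!
# Row 250 (helper71): the core nonlinearity `NL`: holomorphy, values, conjugation
-/

set_option autoImplicit false
set_option linter.unusedSectionVars false
open Filter Topology Set
open scoped NNReal ComplexConjugate

noncomputable section

namespace Crest.Agent.N250.Nq

open Gc WS

section Abs

variable {V A : Type} [NormedAddCommGroup V] [NormedSpace ℂ V] [NormedAddCommGroup A]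
  [NormedSpace ℂ A] {f : V → A}

theorem der_line (hf : DifferentiableAt ℂ f 0) (v : V) :
    HasDerivAt (fun s : ℂ => f (s • v)) (fderiv ℂ f 0 v) 0 := by
  have h1 : HasDerivAt (fun s : ℂ => s • v) v 0 := by
    simpa using (hasDerivAt_id (0 : ℂ)).smul_const v
  exact hf.hasFDerivAt.comp_hasDerivAt_of_eq 0 h1 (zero_smul _ _).symm

theorem ev_line {P : V → Prop} (h : ∀ᶠ v in 𝓝 0, P v) (v : V) : ∀ᶠ s : ℂ in 𝓝 0, P (s • v) := by
  have : Tendsto (fun s : ℂ => s • v) (𝓝 0) (𝓝 0) :=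
    (continuous_id.smul continuous_const).tendsto' _ _ (zero_smul ℂ v)
  exact this.eventually h

theorem fd_cj (hf : DifferentiableAt ℂ f 0) (L : A →L⋆[ℂ] A) {k : V → V}
    (hk : ∀ (s : ℂ) v, k (s • v) = conj s • k v) (h : ∀ᶠ v in 𝓝 0, f (k v) = L (f v)) (v : V) :
    fderiv ℂ f 0 (k v) = L (fderiv ℂ f 0 v) := by
  have h1 := (der_line hf v).comp_semilinear (starRingEnd ℂ) L
  rw [map_zero] at h1
  refine (der_line hf (k v)).unique (h1.congr_of_eventuallyEq ?_)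
  have : Tendsto (fun s : ℂ => conj s) (𝓝 0) (𝓝 0) :=
    Complex.continuous_conj.tendsto' _ _ (map_zero _)
  filter_upwards [this.eventually (ev_line h v)] with s hs
  rw [hk, Complex.conj_conj] at hs
  exact hs

theorem fd_ev (hf : DifferentiableAt ℂ f 0) (L : A →L[ℂ] ℂ) (v : V) {e : ℂ → ℂ} {a b c d : ℂ}
    (he : HasDerivAt e d 0)
    (h : ∀ᶠ s : ℂ in 𝓝 0, L (f (s • v)) = 1 / 2 * (a * (b * (2 * e s - s * c)))) :
    L (fderiv ℂ f 0 v) = 1 / 2 * (a * (b * (2 * d - c))) := by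
  have h1 := L.hasFDerivAt.comp_hasDerivAt 0 (der_line hf v)
  have h2 := (((he.const_mul 2).sub ((hasDerivAt_id (0 : ℂ)).mul_const c)).const_mul
    b).const_mul a |>.const_mul (1 / 2 : ℂ)
  rw [one_mul] at h2
  exact h1.unique (h2.congr_of_eventuallyEq h)

end Abs

variable {X : Type} [TopologicalSpace X] [MeasurableSpace X] [BorelSpace X] {G : Geo X}
  {σ : Scale G} {J κ : Type} [Fintype J] [Fintype κ] {D : Dt G J κ}

theorem val_tr {f : G.R} (h : Fi G σ.ε f) : σ.val (tr σ f) = G.oR f := by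
  rw [tr, dif_pos h]; rfl

theorem cj_tr (f : G.R) : σ.cj (tr σ f) = tr σ f := by
  by_cases h : Fi G σ.ε f
  · exact Scale.AA_ext (by rw [σ.val_cj, val_tr h, G.cj_oR])
  · rw [tr, dif_neg h, map_zero]

theorem smul_val (s : ℂ) (f : G.SmC) (p : X) : (s • f).1 p = s * f.1 p := rfl

/-- `ρ^k dr` -/
def drL (G : Geo X) (k : ℕ) : G.SmC →ₗ[ℂ] G.SmC := LinearMap.mulLeft ℂ (G.oR G.ρ ^ k) ∘ₗ
  (⟨⟨G.SC.dr, Mov.dr_add G.dsC⟩, G.dr_smul⟩ : G.SmC →ₗ[ℂ] G.SmC)

theorem drL_apply (k : ℕ) (f : G.SmC) : drL G k f = G.oR G.ρ ^ k * G.SC.dr f := rfl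

theorem oR_ow (k : ℕ) (l : List (Fin 3)) (g : G.R) :
    G.oR (ow G k l g) = G.oR G.ζ * G.jL k l (G.oR g) := by
  rw [ow, map_mul, map_mul, map_pow, G.jL_apply, G.Dw_oR]

theorem oR_od (k : ℕ) (g : G.R) : G.oR (od G k g) = G.oR G.ζ * drL G k (G.oR g) := by
  rw [od, map_mul, map_mul, map_pow, drL_apply, G.dr_oR]

namespace Dt

theorem val_rt {O : G.R → G.R} {w : Fin 3 → G.R} (L : G.SmC →ₗ[ℂ] G.SmC)
    (hO : ∀ g, G.oR (O g) = G.oR G.ζ * L (G.oR g)) (hf : ∀ j d, Fi G σ.ε (O (D.χ j * w d)))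
    (T : Mt J) (c : Fin 3) : σ.val (D.rt σ O w T c) = G.oR G.ζ * L (D.mv T w c) := by
  simp only [rt, mv, map_sum, map_smul, val_tr (hf _ _), hO, Finset.mul_sum, mul_smul_comm]

theorem rt_zero (O : G.R → G.R) (w : Fin 3 → G.R) (c : Fin 3) : D.rt σ O w 0 c = 0 := by
  simp [rt]

theorem cj_rt (O : G.R → G.R) (w : Fin 3 → G.R) (T : Mt J) (c : Fin 3) :
    σ.cj (D.rt σ O w T c) = D.rt σ O w (star T) c := by
  simp only [rt, map_sum, σ.cj_smul, cj_tr]; rfl

theorem rt_diff (O : G.R → G.R) (w : Fin 3 → G.R) (c : Fin 3) (z : Vr σ J κ) :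
    DifferentiableAt ℂ (fun v : Vr σ J κ => D.rt σ O w v.2.2.2.1 c) z := by
  unfold rt
  fun_prop

variable (D σ) in
theorem df (z : Vr σ J κ) : DF (D.fl σ) (fun a => tr σ (G.n a)) z where
  n _ := rfl
  B _ _ := differentiableAt_const _
  j0 := differentiableAt_fst
  j1 a := by change DifferentiableAt ℂ (fun v : Vr σ J κ => v.2.1 a) z; fun_prop
  j2 a b := by change DifferentiableAt ℂ (fun v : Vr σ J κ => v.2.2.1 a b) z; fun_prop
  V _ := (differentiableAt_const _).add (rt_diff _ _ _ _)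
  V1 _ _ := (differentiableAt_const _).add (rt_diff _ _ _ _)
  V2 _ _ _ := (differentiableAt_const _).add (rt_diff _ _ _ _)
  Vd _ := (differentiableAt_const _).add (rt_diff _ _ _ _)
  y1 _ _ := by simp only [fl]; exact rt_diff _ _ _ _
  y2 _ _ _ := by simp only [fl]; exact rt_diff _ _ _ _
  yd _ := by simp only [fl]; exact rt_diff _ _ _ _
  f0 := by
    change DifferentiableAt ℂ (fun v : Vr σ J κ => ∑ i, v.2.2.2.2 i • tr σ (G.ρ * D.φ i)) z
    fun_prop
  f1 a := by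
    change DifferentiableAt ℂ
      (fun v : Vr σ J κ => ∑ i, v.2.2.2.2 i • tr σ (G.ρ ^ 2 * G.S.D a (D.φ i))) z
    fun_prop

theorem fl_cj (v : Vr σ J κ) : D.fl σ (cjV v) = (D.fl σ v).map σ.cj := by
  simp only [fl, Fl.map, cjV, cj_tr, cj_rt, map_add, map_sum, σ.cj_smul]
  rfl

variable (g : D.Good) (o : D.Ok σ.ε)
include g o

theorem bp : (D.fl σ 0).Bp where
  sh := ⟨Scale.AA_ext (by
      simp only [fl, map_sum, map_mul, val_tr (o.n _), map_one]
      exact G.hypC.nn),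
    fun a b => by simp only [fl, G.hyp.B_symm a b], fun b => Scale.AA_ext (by
      simp only [fl, map_sum, map_mul, val_tr (o.n _), val_tr (o.B _ _), map_zero, ← G.SC_B,
        mul_left_comm _ (G.oR G.ρ), ← Finset.mul_sum]
      exact (congrArg _ (G.hypC.n_B b)).trans (mul_zero _))⟩
  nV := Scale.AA_ext (by
    simp only [fl, dot, Prod.snd_zero, Prod.fst_zero, rt_zero, add_zero, map_sum, map_mul,
      val_tr (o.n _), val_tr (o.Z _), map_one]
    simp only [← map_mul, ← map_sum, g.nZ, map_one])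
  j0 := rfl
  j1 _ := rfl
  j2 _ _ := rfl
  y1 _ _ := by simp only [fl]; exact rt_zero _ _ _
  y2 _ _ _ := by simp only [fl]; exact rt_zero _ _ _
  yd _ := by simp only [fl]; exact rt_zero _ _ _
  f0 := by simp [fl]

theorem ev_U : ∀ᶠ v in 𝓝 (0 : Vr σ J κ), (D.fl σ v).U := (df σ D 0).ev_U (bp g o)

theorem hol_FF : Gl.HolAt (D.FF σ) :=
  (ev_U g o).mono fun v h => (((df σ D v).E h).const_mul _).fun_const_smul _

theorem FF_zero : D.FF σ 0 = 0 := by rw [FF, (bp g o).E, mul_zero, smul_zero]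

theorem hol_NL : Gl.HolAt (D.NL σ) :=
  (hol_FF g o).mono fun _ h => h.sub (fderiv ℂ (D.FF σ) 0).differentiableAt

theorem NL_zero : D.NL σ 0 = 0 := by rw [NL, FF_zero g o, map_zero, sub_zero]

theorem fd_NL : HasFDerivAt (D.NL σ) (0 : Vr σ J κ →L[ℂ] σ.AA) 0 := by
  have := (hol_FF g o).self_of_nhds.hasFDerivAt.sub (fderiv ℂ (D.FF σ) 0).hasFDerivAt
  rwa [sub_self] at this

omit g o in
/-- the projection to the matrices -/
def prT (σ : Scale G) (J κ : Type) [Fintype J] [Fintype κ] : Vr σ J κ →L[ℂ] Mt J :=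
  (ContinuousLinearMap.fst ℂ _ _).comp ((ContinuousLinearMap.snd ℂ _ _).comp
    ((ContinuousLinearMap.snd ℂ _ _).comp (ContinuousLinearMap.snd ℂ _ _)))

theorem hol_NQ : Gl.HolAt (D.NQ σ) :=
  (hol_NL g o).mono fun _ h => h.sub ((D.rot σ).comp (prT σ J κ)).differentiableAt

theorem NQ_zero : D.NQ σ 0 = 0 := by
  rw [NQ, NL_zero g o, Prod.snd_zero, Prod.snd_zero, Prod.snd_zero, Prod.fst_zero, map_zero,
    sub_zero]

theorem fd_NQ : HasFDerivAt (D.NQ σ) (-(D.rot σ).comp (prT σ J κ)) 0 := by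
  have := (fd_NL g o).sub ((D.rot σ).comp (prT σ J κ)).hasFDerivAt
  rwa [zero_sub] at this

omit g in
theorem val_rot (T : Mt J) :
    σ.val (D.rot σ T) = G.oR (D.cut * G.ρ) * G.SC.LL (dot (D.yy T) G.SC.n) := by
  simp only [rot, sum_apply, ContinuousLinearMap.smulRight_apply,
    ContinuousLinearMap.comp_apply, ContinuousLinearMap.proj_apply, map_sum, map_smul,
    val_tr (o.rot _ _ _), dot, yy, mv, Finset.sum_mul, smul_mul_assoc, ← G.LLL_apply,
    Finset.mul_sum, mul_smul_comm]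
  rw [Finset.sum_comm]
  simp only [G.LLL_apply, map_mul, ← G.LL_oR, mul_assoc, G.SC_n]

omit g in
theorem map_val {v : Vr σ J κ} : (D.fl σ v).map σ.val.toRingHom =
    { n := G.SC.n
      B := fun a b => G.oR G.ρ * G.SC.B a b
      j0 := σ.val v.1
      j1 := fun a => σ.val (v.2.1 a)
      j2 := fun a b => σ.val (v.2.2.1 a b)
      V := fun c => G.oR (D.Z c) + G.oR G.ζ * D.mv v.2.2.2.1 D.Z c
      V1 := fun a c => G.oR G.ζ * (G.oR G.ρ * G.SC.D a (D.VV v.2.2.2.1 c))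
      V2 := fun a b c => G.oR G.ζ * (G.oR G.ρ ^ 2 * G.SC.D a (G.SC.D b (D.VV v.2.2.2.1 c)))
      Vd := fun c => G.oR G.ζ * (G.oR G.ρ ^ 2 * G.SC.dr (D.VV v.2.2.2.1 c))
      y1 := fun a c => G.oR G.ζ * G.SC.D a (D.yy v.2.2.2.1 c)
      y2 := fun a b c => G.oR G.ζ * (G.oR G.ρ * G.SC.D a (G.SC.D b (D.yy v.2.2.2.1 c)))
      yd := fun c => G.oR G.ζ * (G.oR G.ρ * (G.SC.dr (D.yy v.2.2.2.1 c) - D.yy v.2.2.2.1 c))
      f0 := G.oR G.ρ * D.ph v.2.2.2.2
      f1 := fun a => G.oR G.ρ ^ 2 * G.SC.D a (D.ph v.2.2.2.2) } := by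
  have e : ∀ f, σ.val.toRingHom f = σ.val f := fun _ => rfl
  simp only [Fl.map, fl, Fl.mk.injEq, e, true_and]
  refine ⟨funext fun a => val_tr (o.n a), ?_, ?_, ?_, ?_, ?_, ?_, ?_, ?_, ?_, ?_⟩
  · funext a b
    rw [val_tr (o.B a b), map_mul, G.SC_B]
  · funext c
    rw [map_add, val_tr (o.Z c), val_rt _ (oR_ow _ _) o.V, G.jL_apply, pow_zero, one_mul]; rfl
  · funext a c
    rw [map_add, val_tr (o.Z1 a c), val_rt _ (oR_ow _ _) (o.V1 a), oR_ow, ← mul_add, ← map_add,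
      G.jL_apply, pow_one]; rfl
  · funext a b c
    rw [map_add, val_tr (o.Z2 a b c), val_rt _ (oR_ow _ _) (o.V2 a b), oR_ow, ← mul_add,
      ← map_add, G.jL_apply]; rfl
  · funext c
    rw [map_add, val_tr (o.Zd c), val_rt _ (oR_od _) o.Vd, oR_od, ← mul_add, ← map_add,
      drL_apply]; rfl
  · funext a c
    rw [val_rt _ (oR_ow _ _) (o.y1 a), G.jL_apply, pow_zero, one_mul]; rfl
  · funext a b c
    rw [val_rt _ (oR_ow _ _) (o.y2 a b), G.jL_apply, pow_one]; rfl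
  · funext c
    rw [val_rt (O := fun g => od G 1 g - ow G 1 [] g) (drL G 1 - G.jL 1 []) (fun g => by
      rw [map_sub, oR_od, oR_ow, LinearMap.sub_apply, mul_sub]) o.yd, LinearMap.sub_apply,
      drL_apply, G.jL_apply, pow_one, ← mul_sub, yy, Mov.Dw]
  · simp only [ph, map_sum, map_smul, val_tr (o.f0 _), map_mul, Finset.mul_sum, mul_smul_comm]
  · funext a
    simp only [ph, map_sum, map_smul, val_tr (o.f1 _ _), map_mul, map_pow, ← G.D_oR,
      ← G.DLin_apply, Finset.mul_sum, mul_smul_comm]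

omit g in
theorem map_at {v : Vr σ J κ} {u : G.SmC} {p : X} (h : At v u p) :
    (D.fl σ v).map (σ.evA p).toRingHom =
      (D.tF u v.2.2.2.1 v.2.2.2.2).map (G.evC p).toRingHom := by
  have e : (D.fl σ v).map (σ.evA p).toRingHom =
      ((D.fl σ v).map σ.val.toRingHom).map (G.evC p).toRingHom := rfl
  have hζ : (G.evC p).toRingHom (G.oR G.ζ) = 1 := by rw [evC_eq, G.oR_apply, h.ζ]; rfl
  rw [e, map_val o]
  simp only [Fl.map, tF, tf, Fl.mk.injEq, map_mul _ (G.oR G.ζ), hζ, one_mul, true_and, and_true,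
    map_add _ (G.oR (D.Z _)), VV]
  exact ⟨h.j0, funext h.j1, funext fun a => funext (h.j2 a)⟩

omit g in
theorem ev_FF {v : Vr σ J κ} {u : G.SmC} {p : X} (h : At v u p) (hu : (D.fl σ v).U) :
    D.Nd u v.2.2.2.1 v.2.2.2.2 p ∧ (σ.val (D.FF σ v)).1 p = 1 / 2 * (D.cut.1 p *
      (G.ρ.1 p * (2 * D.EQ u v.2.2.2.1 v.2.2.2.2 p - (G.SC.dr u - u).1 p))) := by
  have h1 := hu.map (σ.evA p).toRingHom
  have h2 := hu.map_E (σ.evA p).toRingHom
  rw [map_at o h] at h1 h2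
  have h3 := (D.nd_iff _ _ _ _).1 h1
  refine ⟨h3, ?_⟩
  rw [← h3.E, h2, ← σ.evA_apply, FF, map_smul, map_mul, σ.evA_apply, val_tr o.cut]
  rfl

omit g o in
theorem _root_.Crest.Agent.N250.Nq.At.smul {v : Vr σ J κ} {u : G.SmC} {p : X} (h : At v u p)
    (s : ℂ) : At (s • v) (s • u) p where
  ζ := h.ζ
  j0 := by
    rw [mul_smul_comm, Prod.smul_fst, map_smul]
    exact congrArg (s * ·) h.j0
  j1 a := by
    rw [G.D_smul, Prod.smul_snd, Prod.smul_fst, Pi.smul_apply, map_smul]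
    exact congrArg (s * ·) (h.j1 a)
  j2 a b := by
    rw [G.D_smul, G.D_smul, mul_smul_comm, Prod.smul_snd, Prod.smul_snd, Prod.smul_fst,
      Pi.smul_apply, Pi.smul_apply, map_smul]
    exact congrArg (s * ·) (h.j2 a b)

theorem line (v : Vr σ J κ) :
    HasDerivAt (fun s : ℂ => D.FF σ (s • v)) (fderiv ℂ (D.FF σ) 0 v) 0 :=
  der_line (hol_FF g o).self_of_nhds v

end Dt

end Crest.Agent.N250.Nq

end
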