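import Crest.Agent.N250.Nq.Defs
import Crest.Agent.N250.Nq.Lin

/-!
# Row 250 (helper71): the rational function of the jets of a function, pointwise
-/

set_option autoImplicit false
set_option linter.unusedSectionVars false
open Filter Topology

noncomputable section

namespace Crest.Agent.N250.Nq

open Gc WS

section Ring

variable {R : Type} [CommRing R] (S : Mov R (Fin 3)) (ρ ι u φ : R) (V y : Fin 3 → R)

/-- the jets of `x + y + u V` -/
def tf : Fl R where
  n := S.n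
  B a b := ρ * S.B a b
  j0 := ι * u
  j1 a := S.D a u
  j2 a b := ρ * S.D a (S.D b u)
  V := V
  V1 a c := ρ * S.D a (V c)
  V2 a b c := ρ ^ 2 * S.D a (S.D b (V c))
  Vd c := ρ ^ 2 * S.dr (V c)
  y1 a c := S.D a (y c)
  y2 a b c := ρ * S.D a (S.D b (y c))
  yd c := ρ * (S.dr (y c) - y c)
  f0 := ρ * φ
  f1 a := ρ ^ 2 * S.D a φ

variable [Algebra ℝ R] {S ρ ι} (H : S.IsHyp) (e : ρ * ι = 1)
include H e

theorem tf_J : (tf S ρ ι u φ V y).J = S.Jm (S.x + (y + fun c => u * V c)) := by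
  rw [H.Jm_add, H.Jm_add, H.Jm_x, H.Jm_mul]
  funext a c
  simp only [Fl.J, tf, Pi.add_apply, Mov.gJ, Mov.Jm]
  linear_combination u * S.D a (V c) * e

theorem tf_K : (tf S ρ ι u φ V y).K = fun a b c => ρ * S.Km (S.x + (y + fun c => u * V c)) a b c := by
  rw [H.Km_add, H.Km_add, H.Km_x, H.Km_mul]
  funext a b c
  simp only [Fl.K, tf, Pi.add_apply, Mov.gK, Mov.Km, K0]
  linear_combination ρ * u * S.D a (S.D b (V c)) * e

theorem tf_N : (tf S ρ ι u φ V y).N = S.NX (S.x + (y + fun c => u * V c)) := by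
  rw [Fl.N, tf_J u φ V y H e]; rfl

theorem tf_G : (tf S ρ ι u φ V y).G = S.GX (S.x + (y + fun c => u * V c)) := by
  rw [Fl.G, tf_J u φ V y H e]; rfl

theorem tf_NV : (tf S ρ ι u φ V y).NV = dot (S.NX (S.x + (y + fun c => u * V c))) V := by
  rw [Fl.NV, tf_N u φ V y H e]; rfl

omit H in
theorem tf_d3 : (tf S ρ ι u φ V y).d3 = 1 - u * φ := by
  simp only [Fl.d3, tf]
  linear_combination -u * φ * e

theorem tf_HP : HP (tf S ρ ι u φ V y).n (tf S ρ ι u φ V y).J (tf S ρ ι u φ V y).K =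
    ρ * S.HX (S.x + (y + fun c => u * V c)) := by
  rw [tf_J u φ V y H e, tf_K u φ V y H e, HP_mul]; rfl

theorem tf_E2 (hs : S.xn = 2 * S.h) : (tf S ρ ι u φ V y).E2 =
    ρ * (dot (S.x + (y + fun c => u * V c)) (S.NX (S.x + (y + fun c => u * V c))) +
      (S.dr u - u) * dot (S.NX (S.x + (y + fun c => u * V c))) V) := by
  rw [Fl.E2, tf_N u φ V y H e, H.drift_add, hs]
  generalize S.NX (S.x + (y + fun c => u * V c)) = N
  have hh : S.h = ∑ a, S.B a a := rfl
  simp only [tf, hh, dot, Fin.sum_univ_three, Pi.add_apply, H.dr_add3, H.dr_mul3]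
  linear_combination -ρ * u * (S.dr (V 0) * N 0 + S.dr (V 1) * N 1 + S.dr (V 2) * N 2) * e

theorem tf_E3 : (tf S ρ ι u φ V y).E3 = ρ * (S.GX (S.x + (y + fun c => u * V c)) * φ -
    ∑ a, dot (S.WX (S.x + (y + fun c => u * V c)) a) V * S.D a (u * φ)) := by
  rw [Fl.E3, tf_G u φ V y H e, tf_J u φ V y H e]
  change _ - ∑ a, dot (S.WX (S.x + (y + fun c => u * V c)) a) V * _ = _
  generalize S.WX (S.x + (y + fun c => u * V c)) = W
  simp only [tf, Fin.sum_univ_three, H.mul]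
  linear_combination -ρ * u * (dot (W 0) V * S.D 0 φ + dot (W 1) V * S.D 1 φ
    + dot (W 2) V * S.D 2 φ) * e

omit H e in
/-- the normalised Euler-Lagrange expression at the character `w` -/
def eqv (S : Mov R (Fin 3)) (w : R →+* ℂ) (u φ : R) (V Y : Fin 3 → R) : ℂ :=
  w (S.ELX Y) / (2 * w (S.GX Y) * w (dot (S.NX Y) V)) -
    w (S.GX Y * φ - ∑ a, dot (S.WX Y a) V * S.D a (u * φ)) /
      (w (dot (S.NX Y) V) ^ 2 * (1 - w u * w φ))

theorem tf_E (hs : S.xn = 2 * S.h) (w : R →+* ℂ) (h : ((tf S ρ ι u φ V y).map w).U) :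
    ((tf S ρ ι u φ V y).map w).E =
      w ρ * (2 * eqv S w u φ V (S.x + (y + fun c => u * V c)) - w (S.dr u - u)) := by
  have h1 := h.G.ne_zero
  have h2 := h.NV.ne_zero
  have h3 := h.d3.ne_zero
  simp only [Fl.E, Fl.map_HP', Fl.map_G, Fl.map_NV, Fl.map_d3, Fl.map_E2, Fl.map_E3,
    tf_G _ _ _ _ H e, tf_NV _ _ _ _ H e, tf_d3 _ _ _ _ e, tf_HP _ _ _ _ H e, tf_E2 _ _ _ _ H e hs,
    tf_E3 _ _ _ _ H e, Ring.inverse_eq_inv, eqv] at h1 h2 h3 ⊢
  generalize S.x + (y + fun c => u * V c) = Y at *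
  have e4 : S.ELX Y = 2 * S.HX Y - dot Y (S.NX Y) * S.GX Y := rfl
  rw [e4]
  generalize dot (S.NX Y) V = a, dot Y (S.NX Y) = b,
    S.GX Y * φ - ∑ a, dot (S.WX Y a) V * S.D a (u * φ) = d, S.dr u - u = f at *
  simp only [map_add, map_sub, map_mul, map_one, map_ofNat] at h3 ⊢
  field_simp
  ring

omit e in
theorem dv_eqv (hs : S.xn = 2 * S.h) (w : R →+* ℂ) (hw : w (algebraMap ℝ R (1 / 2)) = 1 / 2)
    {Y V : ℂ → Fin 3 → R} {u φ : ℂ → R} {A Z : Fin 3 → R} {V' : Fin 3 → ℂ} {f g : ℂ}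
    (hZ : dot S.n Z = 1)
    (ev : ∀ l d, Dv (fun s => w (S.Dw l (Y s d))) (w (S.Dw l (S.x d))) (w (S.Dw l (A d))))
    (hV : ∀ d, Dv (fun s => w (V s d)) (w (Z d)) (V' d)) (hp : Dv (fun s => w (φ s)) 0 f)
    (hu : Dv (fun s => w (u s)) 0 g) (hq : ∀ a, Dv (fun s => w (S.D a (u s * φ s))) 0 0) :
    Dv (fun s => eqv S w (u s) (φ s) (V s) (Y s)) 0 (-(w (S.LL (dot A S.n)) + f)) := by
  have hX : ∀ d, Dv (fun s => w (Y s d)) (w (S.x d)) (w (A d)) := ev []
  have hJ : ∀ a d, Dv (fun s => w (S.Jm (Y s) a d)) (pj (fun a => w (S.n a)) a d)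
      (w (S.Jm A a d)) := fun a d =>
    (ev [a] d).congr (by
      change w (S.Jm S.x a d) = _
      simp only [H.Jm_x, P0, pj, map_sub, map_mul, apply_ite w, map_one, map_zero]) rfl
  have hK : ∀ a b d, Dv (fun s => w (S.Km (Y s) a b d))
      (-(w (S.B a b) * w (S.n d)) - w (S.n b) * w (S.B a d)) (w (S.Km A a b d)) := fun a b d =>
    (ev [a, b] d).congr (by
      change w (S.Km S.x a b d) = _
      simp only [H.Km_x, K0, map_sub, map_mul, map_neg]) rfl
  have nn : ∑ a, w (S.n a) * w (S.n a) = 1 := by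
    simp only [← map_mul, ← map_sum, H.nn, map_one]
  obtain ⟨hG, hE⟩ := dv_EL (n := fun a => w (S.n a)) (x := fun a => w (S.x a))
    (B := fun a b => w (S.B a b)) nn
    (fun d => by simp only [← map_mul, ← map_sum, (H.fr A).nJ, map_zero])
    (fun b d => by simp only [← map_mul, ← map_sum, H.n_K, map_zero])
    (fun a b => by rw [H.B_symm])
    (fun b => by simp only [← map_mul, ← map_sum, H.n_B, map_zero])
    (by
      have := congrArg w hs
      rw [map_mul, map_ofNat] at this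
      rw [← map_dot, ← map_sum]
      exact this) hX hJ hK
  have hNZ := (Dv.dot (dv_N hJ) hV).congr (a' := 1) (by rw [← map_dot, hZ, map_one]) rfl
  have hW := fun a => Dv.dot (fun d => Dv.sum fun b => (((Dv.sum fun e => Dv.dot (hJ e) (hJ e)).ite
    (c := a = b)).sub (Dv.dot (hJ a) (hJ b))).mul (hJ b d)) hV
  have h1 := hE.mul ((((Dv.const 2).mul hG).mul hNZ).inv (by norm_num))
  have h2 := ((hG.mul hp).sub (Dv.sum fun a => (hW a).mul (hq a))).mul
    (((hNZ.mul hNZ).mul ((Dv.const 1).sub (hu.mul hp))).inv (by norm_num))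
  have e2 := congrArg w (H.LL_dot hs A)
  simp only [map_add, map_sub, map_mul, map_sum, map_dot, map_ofNat, hw] at e2
  have h3 := (h1.sub h2).congr (a' := 0) (b' := -(w (S.LL (dot A S.n)) + f)) (by simp)
    (by rw [e2]; simp; ring)
  refine (congrArg (Dv · _ _) (funext fun s => ?_)).mp h3
  simp only [eqv, Mov.ELX, Mov.GX, Mov.NX, Mov.WX, map_EL, map_G2, map_dot, map_Nv, map_Wv, map_sub,
    map_mul, map_sum, div_eq_mul_inv, pow_two]
  rfl

end Ring

theorem dv_quad {A : Type} [AddCommGroup A] [Module ℂ A] (l : A →ₗ[ℂ] ℂ) (a b c : A) :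
    Dv (fun s : ℂ => l (a + (s • b + s • s • c))) (l a) (l b) := by
  simp only [map_add, map_smul, smul_eq_mul]
  exact ((Dv.const _).add ((Dv.id.mul (Dv.const _)).add
    (Dv.id.mul (Dv.id.mul (Dv.const _))))).congr (by ring) (by ring)

variable {X : Type} [TopologicalSpace X] [MeasurableSpace X] {G : Geo X} {J κ : Type}
  [Fintype J] [Fintype κ] (D : Dt G J κ)

theorem ρι_C (G : Geo X) : G.oR G.ρ * G.oR G.ι = 1 := by rw [← map_mul, G.ρι, map_one]

theorem evC_eq (p : X) (f : G.SmC) : (G.evC p).toRingHom f = f.1 p := rfl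

namespace Dt

/-- the jets of the map `Xh` -/
def tF (u : G.SmC) (T : Mt J) (c : κ → ℂ) : Fl G.SmC :=
  tf G.SC (G.oR G.ρ) (G.oR G.ι) u (D.ph c) (D.VV T) (D.yy T)

variable (u : G.SmC) (T : Mt J) (c : κ → ℂ) (p : X)

theorem nd_iff : ((D.tF u T c).map (G.evC p).toRingHom).U ↔ D.Nd u T c p := by
  have e1 : ((D.tF u T c).map (G.evC p).toRingHom).G = (G.SC.GX (D.Xh u T)).1 p := by
    rw [Fl.map_G, tF, tf_G _ _ _ _ G.hypC (ρι_C G), evC_eq, Xh]
  have e2 : ((D.tF u T c).map (G.evC p).toRingHom).NV = (D.NZ u T).1 p := by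
    rw [Fl.map_NV, tF, tf_NV _ _ _ _ G.hypC (ρι_C G), evC_eq, NZ, Xh]
  have e3 : ((D.tF u T c).map (G.evC p).toRingHom).d3 = 1 - u.1 p * (D.ph c).1 p := by
    rw [Fl.map_d3, tF, tf_d3 _ _ _ _ (ρι_C G), map_sub, map_mul, map_one, evC_eq, evC_eq]
  constructor
  · rintro ⟨h1, h2, h3⟩
    rw [e1] at h1; rw [e2] at h2; rw [e3] at h3
    exact ⟨h1.ne_zero, h2.ne_zero, h3.ne_zero⟩
  · rintro ⟨h1, h2, h3⟩
    rw [← e1] at h1; rw [← e2] at h2; rw [← e3] at h3
    exact ⟨h1.isUnit, h2.isUnit, h3.isUnit⟩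

theorem EQ_eq : D.EQ u T c p =
    eqv G.SC (G.evC p).toRingHom u (D.ph c) (D.VV T) (D.Xh u T) := by
  simp only [eqv, evC_eq, EQ, NZ, Mu]

variable {D u T c p} in
theorem Nd.E (h : D.Nd u T c p) : ((D.tF u T c).map (G.evC p).toRingHom).E =
    G.ρ.1 p * (2 * D.EQ u T c p - (G.SC.dr u - u).1 p) := by
  rw [EQ_eq, Xh]
  exact tf_E _ _ _ _ G.hypC (ρι_C G) G.shrC _ ((D.nd_iff u T c p).2 h)

theorem mv_smul (s : ℂ) (w : Fin 3 → G.R) (d : Fin 3) : D.mv (s • T) w d = s • D.mv T w d := by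
  simp only [mv, Finset.smul_sum, Pi.smul_apply, smul_eq_mul, mul_smul]

theorem ph_smul (s : ℂ) : D.ph (s • c) = s • D.ph c := by
  simp only [ph, Finset.smul_sum, Pi.smul_apply, smul_eq_mul, mul_smul]

theorem Xh_smul (s : ℂ) (d : Fin 3) : D.Xh (s • u) (s • T) d = G.SC.x d +
    (s • (D.yy T d + u * G.oR (D.Z d)) + s • s • (u * D.mv T D.Z d)) := by
  simp only [Xh, yy, VV, Pi.add_apply, mv_smul, mul_add, smul_add, smul_mul_assoc, mul_smul_comm,
    add_assoc]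

theorem dv_EQ (hZ : ∑ c, G.n c * D.Z c = 1) : Dv (fun s => D.EQ (s • u) (s • T) (s • c) p) 0
    (-((G.SC.LL u).1 p + (G.SC.LL (dot (D.yy T) G.SC.n)).1 p + (D.ph c).1 p)) := by
  have hnZ : dot G.SC.n (fun d => G.oR (D.Z d)) = 1 := by
    rw [← map_one G.oR, ← hZ, map_sum]
    exact Finset.sum_congr rfl fun d _ => (map_mul _ _ _).symm
  have e1 : dot (fun d => D.yy T d + u * G.oR (D.Z d)) G.SC.n = u + dot (D.yy T) G.SC.n := by
    simp only [dot, Fin.sum_univ_three] at hnZ ⊢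
    linear_combination u * hnZ
  have hp : ∀ f : G.SmC, Dv (fun s : ℂ => G.evC p (s • f)) 0 (f.1 p) := fun f =>
    (Dv.id.mul (Dv.const (f.1 p))).congr (by ring) (by ring)
  have := dv_eqv G.hypC G.shrC (G.evC p).toRingHom (Y := fun s => D.Xh (s • u) (s • T))
    (V := fun s => D.VV (s • T)) (u := fun s => s • u) (φ := fun s => D.ph (s • c))
    (A := fun d => D.yy T d + u * G.oR (D.Z d)) (V' := fun d => (D.mv T D.Z d).1 p)
    (f := (D.ph c).1 p) (g := u.1 p)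
    (by
      change (((1 / 2 : ℝ) : ℂ)) = _
      push_cast; rfl) hnZ
    (fun l d => by
      simp only [Xh_smul]
      exact dv_quad ((G.evC p).toLinearMap.comp (G.DwLin l)) _ _ _)
    (fun d => by
      simp only [VV, mv_smul, map_add]
      exact ((Dv.const _).add (hp _)).congr (add_zero _) (zero_add _))
    (by simp only [ph_smul]; exact hp _) (hp _)
    (fun a => by
      simp only [ph_smul, smul_mul_assoc, mul_smul_comm, G.D_smul]
      exact (Dv.id.mul (hp _)).congr (by ring) (by ring))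
  rw [e1, Mov.LL_add G.dsC, map_add, evC_eq, evC_eq] at this
  simpa only [EQ_eq] using this

end Dt

end Crest.Agent.N250.Nq

end
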